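import Crest.Agent.Lib.Computability.Rat

/-!
`fun_prop` support for `Primrec`.  Tests are Boolean valued (`eqB`, `leQ`, `ltQ`, `leN`, `ltN`)
and branching is by `cond` (`bif .. then .. else ..`).
-/

set_option autoImplicit false

namespace Crest.Agent.Lib.Computability

attribute [fun_prop] Primrec

variable {α β γ σ : Type*} [Primcodable α] [Primcodable β] [Primcodable γ] [Primcodable σ]

@[fun_prop] theorem fp_id : Primrec (fun x : α => x) := Primrec.id
@[fun_prop] theorem fp_const (c : β) : Primrec (fun _ : α => c) := Primrec.const c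
@[fun_prop] theorem fp_comp {f : β → γ} {g : α → β} (hf : Primrec f) (hg : Primrec g) :
    Primrec (fun x => f (g x)) := hf.comp hg
@[fun_prop] theorem fp_pair {f : α → β} {g : α → γ} (hf : Primrec f) (hg : Primrec g) :
    Primrec (fun x => (f x, g x)) := hf.pair hg
@[fun_prop] theorem fp_fst {f : α → β × γ} (hf : Primrec f) : Primrec (fun x => (f x).1) :=
  Primrec.fst.comp hf
@[fun_prop] theorem fp_snd {f : α → β × γ} (hf : Primrec f) : Primrec (fun x => (f x).2) :=
  Primrec.snd.comp hf

/-- Equality test. -/
def eqB {β : Type*} [DecidableEq β] (a b : β) : Bool := decide (a = b)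
/-- Order tests. -/
def leN (a b : ℕ) : Bool := decide (a ≤ b)
/-- Order tests. -/
def ltN (a b : ℕ) : Bool := decide (a < b)
/-- Order tests. -/
def leQ (a b : ℚ) : Bool := decide (a ≤ b)
/-- Order tests. -/
def ltQ (a b : ℚ) : Bool := decide (a < b)

@[simp] theorem eqB_iff {β : Type*} [DecidableEq β] {a b : β} : eqB a b = true ↔ a = b := by
  simp [eqB]
@[simp] theorem leN_iff {a b : ℕ} : leN a b = true ↔ a ≤ b := by simp [leN]
@[simp] theorem ltN_iff {a b : ℕ} : ltN a b = true ↔ a < b := by simp [ltN]
@[simp] theorem leQ_iff {a b : ℚ} : leQ a b = true ↔ a ≤ b := by simp [leQ]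
@[simp] theorem ltQ_iff {a b : ℚ} : ltQ a b = true ↔ a < b := by simp [ltQ]

@[fun_prop] theorem fp_eqB [DecidableEq β] {f g : α → β} (hf : Primrec f) (hg : Primrec g) :
    Primrec (fun x => eqB (f x) (g x)) := (Primrec.eq.comp hf hg).decide
@[fun_prop] theorem fp_leN {f g : α → ℕ} (hf : Primrec f) (hg : Primrec g) :
    Primrec (fun x => leN (f x) (g x)) := (Primrec.nat_le.comp hf hg).decide
@[fun_prop] theorem fp_ltN {f g : α → ℕ} (hf : Primrec f) (hg : Primrec g) :
    Primrec (fun x => ltN (f x) (g x)) := (Primrec.nat_lt.comp hf hg).decide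
@[fun_prop] theorem fp_leQ {f g : α → ℚ} (hf : Primrec f) (hg : Primrec g) :
    Primrec (fun x => leQ (f x) (g x)) := (rat_le.comp hf hg).decide
@[fun_prop] theorem fp_ltQ {f g : α → ℚ} (hf : Primrec f) (hg : Primrec g) :
    Primrec (fun x => ltQ (f x) (g x)) := (rat_lt.comp hf hg).decide
@[fun_prop] theorem fp_cond {c : α → Bool} {f g : α → σ} (hc : Primrec c) (hf : Primrec f)
    (hg : Primrec g) : Primrec (fun x => cond (c x) (f x) (g x)) := Primrec.cond hc hf hg
@[fun_prop] theorem fp_and {f g : α → Bool} (hf : Primrec f) (hg : Primrec g) :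
    Primrec (fun x => (f x && g x)) := Primrec.and.comp hf hg
@[fun_prop] theorem fp_or {f g : α → Bool} (hf : Primrec f) (hg : Primrec g) :
    Primrec (fun x => (f x || g x)) := Primrec.or.comp hf hg
@[fun_prop] theorem fp_not {f : α → Bool} (hf : Primrec f) :
    Primrec (fun x => (!f x)) := Primrec.not.comp hf

@[fun_prop] theorem fp_nat_add {f g : α → ℕ} (hf : Primrec f) (hg : Primrec g) :
    Primrec (fun x => f x + g x) := Primrec.nat_add.comp hf hg
@[fun_prop] theorem fp_nat_sub {f g : α → ℕ} (hf : Primrec f) (hg : Primrec g) :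
    Primrec (fun x => f x - g x) := Primrec.nat_sub.comp hf hg
@[fun_prop] theorem fp_nat_mul {f g : α → ℕ} (hf : Primrec f) (hg : Primrec g) :
    Primrec (fun x => f x * g x) := Primrec.nat_mul.comp hf hg
@[fun_prop] theorem fp_nat_div {f g : α → ℕ} (hf : Primrec f) (hg : Primrec g) :
    Primrec (fun x => f x / g x) := Primrec.nat_div.comp hf hg
@[fun_prop] theorem fp_nat_mod {f g : α → ℕ} (hf : Primrec f) (hg : Primrec g) :
    Primrec (fun x => f x % g x) := Primrec.nat_mod.comp hf hg
@[fun_prop] theorem fp_nat_pow {f g : α → ℕ} (hf : Primrec f) (hg : Primrec g) :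
    Primrec (fun x => f x ^ g x) := nat_pow.comp hf hg
@[fun_prop] theorem fp_nat_min {f g : α → ℕ} (hf : Primrec f) (hg : Primrec g) :
    Primrec (fun x => min (f x) (g x)) := Primrec.nat_min.comp hf hg
@[fun_prop] theorem fp_nat_max {f g : α → ℕ} (hf : Primrec f) (hg : Primrec g) :
    Primrec (fun x => max (f x) (g x)) := Primrec.nat_max.comp hf hg
@[fun_prop] theorem fp_factorial {f : α → ℕ} (hf : Primrec f) :
    Primrec (fun x => (f x).factorial) := nat_factorial.comp hf
@[fun_prop] theorem fp_natPair {f g : α → ℕ} (hf : Primrec f) (hg : Primrec g) :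
    Primrec (fun x => Nat.pair (f x) (g x)) := Primrec₂.natPair.comp hf hg
@[fun_prop] theorem fp_unpair {f : α → ℕ} (hf : Primrec f) :
    Primrec (fun x => Nat.unpair (f x)) := Primrec.unpair.comp hf

@[fun_prop] theorem fp_rat_add {f g : α → ℚ} (hf : Primrec f) (hg : Primrec g) :
    Primrec (fun x => f x + g x) := rat_add.comp hf hg
@[fun_prop] theorem fp_rat_sub {f g : α → ℚ} (hf : Primrec f) (hg : Primrec g) :
    Primrec (fun x => f x - g x) := rat_sub.comp hf hg
@[fun_prop] theorem fp_rat_mul {f g : α → ℚ} (hf : Primrec f) (hg : Primrec g) :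
    Primrec (fun x => f x * g x) := rat_mul.comp hf hg
@[fun_prop] theorem fp_rat_div {f g : α → ℚ} (hf : Primrec f) (hg : Primrec g) :
    Primrec (fun x => f x / g x) := rat_div.comp hf hg
@[fun_prop] theorem fp_rat_pow {f : α → ℚ} {g : α → ℕ} (hf : Primrec f) (hg : Primrec g) :
    Primrec (fun x => f x ^ g x) := rat_pow.comp hf hg
@[fun_prop] theorem fp_rat_neg {f : α → ℚ} (hf : Primrec f) :
    Primrec (fun x => - f x) := rat_neg.comp hf
@[fun_prop] theorem fp_rat_inv {f : α → ℚ} (hf : Primrec f) :
    Primrec (fun x => (f x)⁻¹) := rat_inv.comp hf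
@[fun_prop] theorem fp_rat_abs {f : α → ℚ} (hf : Primrec f) :
    Primrec (fun x => |f x|) := rat_abs.comp hf
@[fun_prop] theorem fp_natCast {f : α → ℕ} (hf : Primrec f) :
    Primrec (fun x => ((f x : ℕ) : ℚ)) := rat_natCast.comp hf

@[fun_prop] theorem fp_cons {f : α → β} {g : α → List β} (hf : Primrec f) (hg : Primrec g) :
    Primrec (fun x => f x :: g x) := Primrec.list_cons.comp hf hg
@[fun_prop] theorem fp_append {f g : α → List β} (hf : Primrec f) (hg : Primrec g) :
    Primrec (fun x => f x ++ g x) := Primrec.list_append.comp hf hg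
@[fun_prop] theorem fp_range {f : α → ℕ} (hf : Primrec f) :
    Primrec (fun x => List.range (f x)) := Primrec.list_range.comp hf
@[fun_prop] theorem fp_length {f : α → List β} (hf : Primrec f) :
    Primrec (fun x => (f x).length) := Primrec.list_length.comp hf
@[fun_prop] theorem fp_getD {f : α → List β} {g : α → ℕ} (d : β) (hf : Primrec f)
    (hg : Primrec g) : Primrec (fun x => (f x).getD (g x) d) := (Primrec.list_getD d).comp hf hg
@[fun_prop] theorem fp_map {f : α → List β} {g : α → β → σ} (hf : Primrec f)
    (hg : Primrec (fun p : α × β => g p.1 p.2)) : Primrec (fun x => (f x).map (g x)) :=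
  Primrec.list_map hf hg
@[fun_prop] theorem fp_flatMap {f : α → List β} {g : α → β → List σ} (hf : Primrec f)
    (hg : Primrec (fun p : α × β => g p.1 p.2)) : Primrec (fun x => (f x).flatMap (g x)) :=
  Primrec.list_flatMap hf hg
@[fun_prop] theorem fp_foldr {f : α → List β} {g : α → σ} {h : α → β → σ → σ} (hf : Primrec f)
    (hg : Primrec g) (hh : Primrec (fun p : α × (β × σ) => h p.1 p.2.1 p.2.2)) :
    Primrec (fun x => (f x).foldr (h x) (g x)) :=
  Primrec.list_foldr (h := fun a p => h a p.1 p.2) hf hg hh
@[fun_prop] theorem fp_foldl {f : α → List β} {g : α → σ} {h : α → σ → β → σ} (hf : Primrec f)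
    (hg : Primrec g) (hh : Primrec (fun p : α × (σ × β) => h p.1 p.2.1 p.2.2)) :
    Primrec (fun x => (f x).foldl (h x) (g x)) :=
  Primrec.list_foldl (h := fun a p => h a p.1 p.2) hf hg hh
@[fun_prop] theorem fp_rat_sum {f : α → List ℚ} (hf : Primrec f) :
    Primrec (fun x => (f x).sum) := rat_listSum.comp hf
@[fun_prop] theorem fp_rat_prod {f : α → List ℚ} (hf : Primrec f) :
    Primrec (fun x => (f x).prod) := by
  have h : Primrec (fun x => (f x).foldr (fun a b => a * b) 1) := by fun_prop
  exact h.of_eq fun x => List.prod_eq_foldr.symm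
@[fun_prop] theorem fp_nat_sum {f : α → List ℕ} (hf : Primrec f) :
    Primrec (fun x => (f x).sum) := by
  have h : Primrec (fun x => (f x).foldr (fun a b => a + b) 0) := by fun_prop
  exact h.of_eq fun x => List.sum_eq_foldr.symm
@[fun_prop] theorem fp_nat_prod {f : α → List ℕ} (hf : Primrec f) :
    Primrec (fun x => (f x).prod) := by
  have h : Primrec (fun x => (f x).foldr (fun a b => a * b) 1) := by fun_prop
  exact h.of_eq fun x => List.prod_eq_foldr.symm

/-- Iteration with a counter: `iter z s n = s (n-1) (... (s 0 z))`. -/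
def iter {σ : Type*} (z : σ) (s : ℕ → σ → σ) : ℕ → σ
  | 0 => z
  | k + 1 => s k (iter z s k)

@[simp] theorem iter_zero {σ : Type*} (z : σ) (s : ℕ → σ → σ) : iter z s 0 = z := rfl
@[simp] theorem iter_succ {σ : Type*} (z : σ) (s : ℕ → σ → σ) (k : ℕ) :
    iter z s (k + 1) = s k (iter z s k) := rfl

@[fun_prop] theorem fp_iter {n : α → ℕ} {z : α → σ} {s : α → ℕ → σ → σ} (hn : Primrec n)
    (hz : Primrec z) (hs : Primrec (fun p : α × (ℕ × σ) => s p.1 p.2.1 p.2.2)) :
    Primrec (fun x => iter (z x) (s x) (n x)) := by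
  refine (Primrec.nat_rec' (h := fun a p => s a p.1 p.2) hn hz hs).of_eq fun x => ?_
  induction n x with
  | zero => rfl
  | succ k ih => simp only [iter_succ, ← ih]

/-- All lists of length `L` with entries below `n`. -/
def allLists (n L : ℕ) : List (List ℕ) :=
  iter [[]] (fun _ l => (List.range n).flatMap fun a => l.map fun x => a :: x) L

@[fun_prop] theorem fp_allLists {f g : α → ℕ} (hf : Primrec f) (hg : Primrec g) :
    Primrec (fun x => allLists (f x) (g x)) := by
  unfold allLists; fun_prop

theorem sum_map_range {M : Type*} [AddCommMonoid M] (n : ℕ) (F : ℕ → M) :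
    ((List.range n).map F).sum = ∑ i : Fin n, F i := by
  rw [← Finset.sum_range]
  induction n with
  | zero => simp
  | succ n ih => simp [List.range_succ, Finset.sum_range_succ, ih]

theorem prod_map_range {M : Type*} [CommMonoid M] (n : ℕ) (F : ℕ → M) :
    ((List.range n).map F).prod = ∏ i : Fin n, F i := by
  rw [← Finset.prod_range]
  induction n with
  | zero => simp
  | succ n ih => simp [List.range_succ, Finset.prod_range_succ, ih]

theorem sum_allLists {M : Type*} [AddCommMonoid M] (n L : ℕ) (F : List ℕ → M) :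
    ((allLists n L).map F).sum = ∑ x : Fin L → Fin n, F (List.ofFn fun i => (x i : ℕ)) := by
  induction L generalizing F with
  | zero => simp [allLists]
  | succ L ih =>
    rw [← (Fin.consEquiv fun _ => Fin n).sum_comp, Fintype.sum_prod_type]
    have : allLists n (L + 1) = (List.range n).flatMap fun a => (allLists n L).map fun x => a :: x :=
      rfl
    rw [this, List.map_flatMap, List.flatMap_def, List.sum_flatten, List.map_map, sum_map_range]
    refine Finset.sum_congr rfl fun a _ => ?_
    simp only [Function.comp, List.map_map]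
    rw [ih]
    refine Finset.sum_congr rfl fun x _ => ?_
    simp [Fin.consEquiv, List.ofFn_succ]

/-- Projections of primitive recursive tests are recursively enumerable. -/
theorem re_exists {c : α → β → Bool} (hc : Primrec (fun p : α × β => c p.1 p.2)) :
    REPred (fun a => ∃ b, c a b = true) := by
  have h1 : Primrec₂ (fun (a : α) (n : ℕ) =>
      ((Encodable.decode (α := β) n).map (c a)).getD false) :=
    Primrec.option_getD.comp
      (Primrec.option_map (Primrec.decode.comp Primrec.snd)
        (hc.comp ((Primrec.fst.comp Primrec.fst).pair Primrec.snd)).to₂) (Primrec.const false)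
  have h2 : Partrec (fun a : α => Nat.rfind (fun n =>
      (Part.some (((Encodable.decode (α := β) n).map (c a)).getD false)))) :=
    Partrec.rfind h1.to_comp.partrec₂
  refine h2.dom_re.of_eq fun a => ?_
  rw [Nat.rfind_dom]
  constructor
  · rintro ⟨n, hn, -⟩
    simp only [Part.mem_some_iff] at hn
    cases h : Encodable.decode (α := β) n with
    | none => simp [h] at hn
    | some b => exact ⟨b, by simpa [h] using hn.symm⟩
  · rintro ⟨b, hb⟩
    exact ⟨Encodable.encode b, by simp [hb], fun _ => trivial⟩

end Crest.Agent.Lib.Computability
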