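import Mathlib

/-!
Primitive recursive arithmetic on `ℕ`, `ℤ` and `ℚ` for the encodings that Mathlib's
`Denumerable` instances give.
-/

set_option autoImplicit false

namespace Crest.Agent.Lib.Computability

open Encodable Denumerable

/-! ### Natural numbers -/

theorem nat_pow : Primrec₂ ((· ^ ·) : ℕ → ℕ → ℕ) :=
  Primrec₂.unpaired'.1 Nat.Primrec.pow

theorem nat_factorial : Primrec Nat.factorial := by
  have h : Primrec (fun n : ℕ => (Nat.rec 1 (fun k ih => (k + 1) * ih) n : ℕ)) :=
    Primrec.nat_rec₁ (f := fun k ih => (k + 1) * ih) 1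
      (Primrec.nat_mul.comp₂ (Primrec.succ.comp₂ Primrec₂.left) Primrec₂.right)
  refine h.of_eq fun n => ?_
  induction n with
  | zero => rfl
  | succ n ih => simp [Nat.factorial, ← ih]

theorem nat_dvd : PrimrecRel ((· ∣ ·) : ℕ → ℕ → Prop) := by
  have h : PrimrecRel (fun a b : ℕ => b % a = 0) :=
    Primrec.eq.comp₂ (Primrec.nat_mod.comp₂ Primrec₂.right Primrec₂.left) (Primrec₂.const 0)
  exact h.of_eq fun a b => (Nat.dvd_iff_mod_eq_zero ..).symm

theorem nat_gcd : Primrec₂ Nat.gcd := by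
  have hp : PrimrecRel (fun (p : ℕ × ℕ) (k : ℕ) => k ∣ p.1 ∧ k ∣ p.2) :=
    PrimrecPred.and (nat_dvd.comp Primrec.snd (Primrec.fst.comp Primrec.fst))
      (nat_dvd.comp Primrec.snd (Primrec.snd.comp Primrec.fst))
  have h := Primrec.nat_findGreatest (f := fun p : ℕ × ℕ => p.1 + p.2) Primrec.nat_add hp
  refine h.of_eq fun p => ?_
  rcases p with ⟨a, b⟩
  rw [Nat.findGreatest_eq_iff]
  refine ⟨?_, fun _ => ⟨Nat.gcd_dvd_left _ _, Nat.gcd_dvd_right _ _⟩, ?_⟩
  · rcases Nat.eq_zero_or_pos a with rfl | ha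
    · simp
    · exact (Nat.gcd_le_left _ ha).trans (Nat.le_add_right _ _)
  · rintro n hn hn' ⟨h1, h2⟩
    have hd : n ∣ Nat.gcd a b := Nat.dvd_gcd h1 h2
    rcases Nat.eq_zero_or_pos (Nat.gcd a b) with h0 | h0
    · rw [Nat.gcd_eq_zero_iff] at h0
      simp only at hn hn'
      omega
    · exact absurd (Nat.le_of_dvd h0 hd) (not_le.2 hn)

/-! ### Integers -/

theorem encode_int_natCast (n : ℕ) : encode (n : ℤ) = 2 * n := by
  change Nat.bit false n = 2 * n
  simp [Nat.bit]

theorem encode_int_negSucc (n : ℕ) : encode (Int.negSucc n) = 2 * n + 1 := by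
  change Nat.bit true n = 2 * n + 1
  simp [Nat.bit]

theorem int_natCast : Primrec (Nat.cast : ℕ → ℤ) :=
  Primrec.encode_iff.1 (Primrec.nat_double.of_eq fun n => (encode_int_natCast n).symm)

theorem int_negSucc : Primrec Int.negSucc :=
  Primrec.encode_iff.1 (Primrec.nat_double_succ.of_eq fun n => (encode_int_negSucc n).symm)

theorem int_toNat : Primrec Int.toNat := by
  have h : Primrec (fun z : ℤ => if encode z % 2 = 0 then encode z / 2 else 0) :=
    Primrec.ite (Primrec.eq.comp (Primrec.nat_mod.comp Primrec.encode (Primrec.const 2))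
      (Primrec.const 0)) (Primrec.nat_div.comp Primrec.encode (Primrec.const 2)) (Primrec.const 0)
  refine h.of_eq fun z => ?_
  cases z with
  | ofNat n =>
    have := encode_int_natCast n
    simp only [Int.ofNat_eq_natCast, this, Int.toNat_natCast]
    simp
  | negSucc n =>
    simp only [encode_int_negSucc, Int.toNat_negSucc]
    rw [if_neg (by omega)]

theorem int_negToNat : Primrec (fun z : ℤ => (-z).toNat) := by
  have h : Primrec (fun z : ℤ => if encode z % 2 = 0 then 0 else encode z / 2 + 1) :=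
    Primrec.ite (Primrec.eq.comp (Primrec.nat_mod.comp Primrec.encode (Primrec.const 2))
      (Primrec.const 0)) (Primrec.const 0)
      (Primrec.succ.comp (Primrec.nat_div.comp Primrec.encode (Primrec.const 2)))
  refine h.of_eq fun z => ?_
  cases z with
  | ofNat n =>
    have := encode_int_natCast n
    simp only [Int.ofNat_eq_natCast, this]
    simp
  | negSucc n =>
    simp only [encode_int_negSucc, Int.neg_negSucc]
    rw [if_neg (by omega)]
    omega

theorem int_subNat : Primrec₂ (fun a b : ℕ => (a : ℤ) - (b : ℤ)) := by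
  have h : Primrec (fun p : ℕ × ℕ =>
      if p.2 ≤ p.1 then ((p.1 - p.2 : ℕ) : ℤ) else Int.negSucc (p.2 - p.1 - 1)) :=
    Primrec.ite (Primrec.nat_le.comp Primrec.snd Primrec.fst)
      (int_natCast.comp (Primrec.nat_sub.comp Primrec.fst Primrec.snd))
      (int_negSucc.comp (Primrec.nat_sub.comp (Primrec.nat_sub.comp Primrec.snd Primrec.fst)
        (Primrec.const 1)))
  refine h.of_eq fun p => ?_
  change _ = (p.1 : ℤ) - (p.2 : ℤ)
  split_ifs with hp <;> omega

theorem int_natAbs : Primrec Int.natAbs :=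
  (Primrec.nat_add.comp int_toNat int_negToNat).of_eq fun z => by omega

theorem int_neg : Primrec (Neg.neg : ℤ → ℤ) :=
  (int_subNat.comp int_negToNat int_toNat).of_eq fun z => by omega

theorem int_add : Primrec₂ ((· + ·) : ℤ → ℤ → ℤ) :=
  (int_subNat.comp
    (Primrec.nat_add.comp (int_toNat.comp Primrec.fst) (int_toNat.comp Primrec.snd))
    (Primrec.nat_add.comp (int_negToNat.comp Primrec.fst) (int_negToNat.comp Primrec.snd))).of_eq
    fun p => by push_cast; omega

theorem int_sub : Primrec₂ ((· - ·) : ℤ → ℤ → ℤ) :=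
  (int_add.comp Primrec.fst (int_neg.comp Primrec.snd)).of_eq fun p => by
    simp [sub_eq_add_neg]

theorem int_mul : Primrec₂ ((· * ·) : ℤ → ℤ → ℤ) := by
  refine (int_subNat.comp
    (Primrec.nat_add.comp
      (Primrec.nat_mul.comp (int_toNat.comp Primrec.fst) (int_toNat.comp Primrec.snd))
      (Primrec.nat_mul.comp (int_negToNat.comp Primrec.fst) (int_negToNat.comp Primrec.snd)))
    (Primrec.nat_add.comp
      (Primrec.nat_mul.comp (int_toNat.comp Primrec.fst) (int_negToNat.comp Primrec.snd))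
      (Primrec.nat_mul.comp (int_negToNat.comp Primrec.fst) (int_toNat.comp Primrec.snd)))).of_eq
    fun p => ?_
  rcases p with ⟨a, b⟩
  have ha := Int.toNat_sub_toNat_neg a
  have hb := Int.toNat_sub_toNat_neg b
  push_cast
  calc _ = ((a.toNat : ℤ) - ((-a).toNat : ℤ)) * ((b.toNat : ℤ) - ((-b).toNat : ℤ)) := by ring
    _ = a * b := by rw [ha, hb]

theorem int_le : PrimrecRel ((· ≤ ·) : ℤ → ℤ → Prop) := by
  have h : PrimrecRel (fun a b : ℤ => (a - b).toNat = 0) :=
    Primrec.eq.comp₂ (int_toNat.comp₂ int_sub) (Primrec₂.const 0)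
  exact h.of_eq fun a b => by omega

theorem int_lt : PrimrecRel ((· < ·) : ℤ → ℤ → Prop) :=
  (int_le.swap.not).of_eq fun a b => by simp [Function.swap]

/-- Division of an integer by a natural number, rounding towards zero. -/
def intQuot (z : ℤ) (g : ℕ) : ℤ := ((z.toNat / g : ℕ) : ℤ) - (((-z).toNat / g : ℕ) : ℤ)

theorem int_quot : Primrec₂ intQuot :=
  int_subNat.comp (Primrec.nat_div.comp (int_toNat.comp Primrec.fst) Primrec.snd)
    (Primrec.nat_div.comp (int_negToNat.comp Primrec.fst) Primrec.snd)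

theorem intQuot_eq_of_dvd {z : ℤ} {g : ℕ} (h : (g : ℤ) ∣ z) : intQuot z g = z / g := by
  obtain ⟨c, rfl⟩ := h
  rcases Nat.eq_zero_or_pos g with rfl | hg
  · simp [intQuot]
  rw [Int.mul_ediv_cancel_left _ (by exact_mod_cast hg.ne')]
  unfold intQuot
  rcases le_total 0 c with hc | hc
  · obtain ⟨c, rfl⟩ := Int.eq_ofNat_of_zero_le hc
    have h1 : ((g : ℤ) * (c : ℤ)).toNat = g * c := by
      rw [← Nat.cast_mul, Int.toNat_natCast]
    have h2 : (-((g : ℤ) * (c : ℤ))).toNat = 0 := by
      rw [← Nat.cast_mul]; omega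
    rw [h1, h2, Nat.mul_div_cancel_left _ hg]; simp
  · obtain ⟨c, hc'⟩ := Int.eq_ofNat_of_zero_le (neg_nonneg.2 hc)
    obtain rfl : _ = -(c : ℤ) := neg_eq_iff_eq_neg.1 hc'
    have h1 : (-((g : ℤ) * -(c : ℤ))).toNat = g * c := by
      rw [mul_neg, neg_neg, ← Nat.cast_mul, Int.toNat_natCast]
    have h2 : (((g : ℤ) * -(c : ℤ))).toNat = 0 := by
      rw [mul_neg, ← Nat.cast_mul]; omega
    rw [h1, h2, Nat.mul_div_cancel_left _ hg]; simp

/-! ### Rationals -/

/-- The plain code of a rational: the pair of numerator code and denominator. -/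
def enc0 (q : ℚ) : ℕ := Nat.pair (encode q.num) q.den

theorem enc0_eq (q : ℚ) : @encode ℚ Rat.instEncodable q = enc0 q := rfl

theorem enc0_injective : Function.Injective enc0 := fun a b h =>
  @encode_injective ℚ Rat.instEncodable a b (by rw [enc0_eq, enc0_eq, h])

/-- The set of plain codes. -/
def IsCode (m : ℕ) : Prop :=
  0 < m.unpair.2 ∧ Nat.gcd (ofNat ℤ m.unpair.1).natAbs m.unpair.2 = 1

instance : DecidablePred IsCode := fun m => by unfold IsCode; infer_instance

theorem isCode_iff (m : ℕ) : IsCode m ↔ m ∈ Set.range (@encode ℚ Rat.instEncodable) := by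
  constructor
  · rintro ⟨h1, h2⟩
    refine ⟨⟨ofNat ℤ m.unpair.1, m.unpair.2, h1.ne', h2⟩, ?_⟩
    rw [enc0_eq]
    simp only [enc0, encode_ofNat, Nat.pair_unpair]
  · rintro ⟨q, rfl⟩
    rw [enc0_eq]
    simp only [IsCode, enc0, Nat.unpair_pair, ofNat_encode]
    exact ⟨q.pos, q.reduced.gcd_eq_one⟩

theorem isCode_enc0 (q : ℚ) : IsCode (enc0 q) := (isCode_iff _).2 ⟨q, rfl⟩

theorem isCode_primrec : PrimrecPred IsCode :=
  PrimrecPred.and (Primrec.nat_lt.comp (Primrec.const 0) (Primrec.snd.comp Primrec.unpair))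
    (Primrec.eq.comp
      (nat_gcd.comp (int_natAbs.comp ((Primrec.ofNat ℤ).comp (Primrec.fst.comp Primrec.unpair)))
        (Primrec.snd.comp Primrec.unpair)) (Primrec.const 1))

/-- The number of plain codes below `m`. -/
def cnt (m : ℕ) : ℕ := ((List.range m).filter (fun x => decide (IsCode x))).length

theorem cnt_primrec : Primrec cnt :=
  Primrec.list_length.comp ((Primrec.listFilter isCode_primrec).comp Primrec.list_range)

theorem cnt_eq_count (m : ℕ) : cnt m = Nat.count IsCode m := by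
  rw [Nat.count, List.countP_eq_length_filter]; rfl

theorem encode_rat (q : ℚ) : @encode ℚ Primcodable.toEncodable q = cnt (enc0 q) := by
  have h : @encode ℚ Primcodable.toEncodable q =
      (List.range (enc0 q)).countP (fun x =>
        @decide (x ∈ Set.range (@encode ℚ Rat.instEncodable))
          (@decidableRangeEncode ℚ Rat.instEncodable x)) := rfl
  rw [h, cnt, ← List.countP_eq_length_filter]
  congr 1
  funext x
  simp [isCode_iff]

theorem enc0_le (q : ℚ) : enc0 q ≤ Nat.pair (cnt (enc0 q)) 1 := by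
  by_contra hlt
  push Not at hlt
  set n := cnt (enc0 q) with hn
  have hsub : (Finset.range (n + 1)).image (fun k => Nat.pair k 1) ⊆
      (Finset.range (enc0 q)).filter IsCode := by
    intro x hx
    simp only [Finset.mem_image, Finset.mem_range] at hx
    obtain ⟨k, hk, rfl⟩ := hx
    simp only [Finset.mem_filter, Finset.mem_range]
    refine ⟨lt_of_le_of_lt ?_ hlt, by simp [IsCode]⟩
    rcases Nat.lt_succ_iff_lt_or_eq.1 hk with h | rfl
    · exact (Nat.pair_lt_pair_left 1 h).le
    · exact le_rfl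
  have hcard := Finset.card_le_card hsub
  rw [Finset.card_image_of_injective _ (fun a b h => (Nat.pair_eq_pair.1 h).1),
    Finset.card_range, ← Nat.count_eq_card_filter_range, ← cnt_eq_count] at hcard
  omega

theorem enc0_primrec : Primrec enc0 := by
  refine Primrec.of_graph ⟨fun q => Nat.pair (@encode ℚ Primcodable.toEncodable q) 1,
    Primrec₂.natPair.comp Primrec.encode (Primrec.const 1), fun q => ?_⟩ ?_
  · change enc0 q ≤ Nat.pair (@encode ℚ Primcodable.toEncodable q) 1
    rw [encode_rat]; exact enc0_le q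
  · have h : PrimrecRel (fun (q : ℚ) (m : ℕ) =>
        IsCode m ∧ cnt m = @encode ℚ Primcodable.toEncodable q) :=
      PrimrecPred.and (isCode_primrec.comp Primrec.snd)
        (Primrec.eq.comp (cnt_primrec.comp Primrec.snd) (Primrec.encode.comp Primrec.fst))
    refine h.of_eq fun q m => ?_
    rw [encode_rat]
    constructor
    · rintro ⟨h1, h2⟩
      rw [cnt_eq_count, cnt_eq_count] at h2
      exact (Nat.count_injective h1 (isCode_enc0 q) h2).symm
    · rintro rfl
      exact ⟨isCode_enc0 q, rfl⟩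

theorem rat_num : Primrec Rat.num :=
  ((Primrec.ofNat ℤ).comp (Primrec.fst.comp (Primrec.unpair.comp enc0_primrec))).of_eq
    fun q => by simp only [enc0, Nat.unpair_pair, ofNat_encode]

theorem rat_den : Primrec Rat.den :=
  (Primrec.snd.comp (Primrec.unpair.comp enc0_primrec)).of_eq fun q => by simp [enc0]

theorem rat_mkRat : Primrec₂ mkRat := by
  have hg : Primrec (fun p : ℤ × ℕ => Nat.gcd p.2 p.1.natAbs) :=
    nat_gcd.comp Primrec.snd (int_natAbs.comp Primrec.fst)
  have hz : PrimrecPred (fun p : ℤ × ℕ => p.2 = 0) := Primrec.eq.comp Primrec.snd (Primrec.const 0)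
  have hnum : Primrec (fun p : ℤ × ℕ => (mkRat p.1 p.2).num) := by
    refine (Primrec.ite hz (Primrec.const (0 : ℤ)) (int_quot.comp Primrec.fst hg)).of_eq fun p => ?_
    rw [Rat.num_mkRat]
    split_ifs with h
    · rfl
    · exact intQuot_eq_of_dvd (Int.natCast_dvd.2 (Nat.gcd_dvd_right _ _))
  have hden : Primrec (fun p : ℤ × ℕ => (mkRat p.1 p.2).den) := by
    refine (Primrec.ite hz (Primrec.const (1 : ℕ))
      (Primrec.nat_div.comp Primrec.snd hg)).of_eq fun p => ?_
    rw [Rat.den_mkRat]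
  refine Primrec.encode_iff.1 ?_
  refine (cnt_primrec.comp (Primrec₂.natPair.comp (Primrec.encode.comp hnum) hden)).of_eq fun p => ?_
  rw [encode_rat]; rfl

theorem rat_add : Primrec₂ ((· + ·) : ℚ → ℚ → ℚ) :=
  (rat_mkRat.comp
    (int_add.comp
      (int_mul.comp (rat_num.comp Primrec.fst) (int_natCast.comp (rat_den.comp Primrec.snd)))
      (int_mul.comp (rat_num.comp Primrec.snd) (int_natCast.comp (rat_den.comp Primrec.fst))))
    (Primrec.nat_mul.comp (rat_den.comp Primrec.fst) (rat_den.comp Primrec.snd))).of_eq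
    fun p => (Rat.add_def' p.1 p.2).symm

theorem rat_mul : Primrec₂ ((· * ·) : ℚ → ℚ → ℚ) :=
  (rat_mkRat.comp (int_mul.comp (rat_num.comp Primrec.fst) (rat_num.comp Primrec.snd))
    (Primrec.nat_mul.comp (rat_den.comp Primrec.fst) (rat_den.comp Primrec.snd))).of_eq
    fun p => (Rat.mul_def' p.1 p.2).symm

theorem rat_neg : Primrec (Neg.neg : ℚ → ℚ) :=
  (rat_mul.comp (Primrec.const (-1)) Primrec.id).of_eq fun q => by simp

theorem rat_sub : Primrec₂ ((· - ·) : ℚ → ℚ → ℚ) :=
  (rat_add.comp Primrec.fst (rat_neg.comp Primrec.snd)).of_eq fun p => by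
    simp [sub_eq_add_neg]

theorem rat_intCast : Primrec (Int.cast : ℤ → ℚ) :=
  (rat_mkRat.comp Primrec.id (Primrec.const 1)).of_eq fun z => by
    simp [Rat.mkRat_eq_div]

theorem rat_natCast : Primrec (Nat.cast : ℕ → ℚ) :=
  (rat_intCast.comp int_natCast).of_eq fun n => by simp

theorem rat_inv : Primrec (Inv.inv : ℚ → ℚ) := by
  refine (rat_mkRat.comp (int_mul.comp (int_natCast.comp rat_den) rat_num)
    (Primrec.nat_mul.comp (int_natAbs.comp rat_num) (int_natAbs.comp rat_num))).of_eq fun q => ?_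
  rw [Rat.mkRat_eq_div]
  by_cases hq : q = 0
  · subst hq; simp
  have hn : (q.num : ℚ) ≠ 0 := by exact_mod_cast Rat.num_ne_zero.2 hq
  have hd : (q.den : ℚ) ≠ 0 := by exact_mod_cast q.den_nz
  have h2 : ((q.num.natAbs * q.num.natAbs : ℕ) : ℚ) = (q.num : ℚ) * (q.num : ℚ) := by
    have := congrArg (Int.cast : ℤ → ℚ) (Int.natAbs_mul_self (a := q.num))
    rw [Int.cast_natCast, Int.cast_mul] at this
    exact this
  rw [h2]
  conv_rhs => rw [← Rat.num_div_den q]
  push_cast
  field_simp

theorem rat_div : Primrec₂ ((· / ·) : ℚ → ℚ → ℚ) :=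
  (rat_mul.comp Primrec.fst (rat_inv.comp Primrec.snd)).of_eq fun p => by
    simp [div_eq_mul_inv]

theorem rat_pow : Primrec₂ ((· ^ ·) : ℚ → ℕ → ℚ) := by
  have h := Primrec.nat_rec (f := fun _ : ℚ => (1 : ℚ)) (g := fun (q : ℚ) (p : ℕ × ℚ) => p.2 * q)
    (Primrec.const 1) (rat_mul.comp₂ (Primrec.snd.comp₂ Primrec₂.right) Primrec₂.left)
  refine h.of_eq fun q n => ?_
  induction n with
  | zero => simp
  | succ n ih => simp [pow_succ, ← ih]

theorem rat_le : PrimrecRel ((· ≤ ·) : ℚ → ℚ → Prop) := by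
  have h : PrimrecRel (fun a b : ℚ => 0 ≤ (b - a).num) :=
    int_le.comp₂ (Primrec₂.const 0) (rat_num.comp₂ rat_sub.swap)
  exact h.of_eq fun a b => by rw [Rat.num_nonneg, sub_nonneg]

theorem rat_lt : PrimrecRel ((· < ·) : ℚ → ℚ → Prop) :=
  (rat_le.swap.not).of_eq fun a b => by simp [Function.swap]

theorem rat_abs : Primrec (abs : ℚ → ℚ) :=
  (Primrec.ite (rat_le.comp (Primrec.const 0) Primrec.id) Primrec.id rat_neg).of_eq fun q => by
    simp only [id]
    split_ifs with h
    · exact (abs_of_nonneg h).symm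
    · exact (abs_of_neg (not_le.1 h)).symm

theorem rat_listSum : Primrec (List.sum : List ℚ → ℚ) :=
  (Primrec.list_foldr (h := fun _ p => p.1 + p.2) Primrec.id (Primrec.const (0 : ℚ))
    (rat_add.comp₂ (Primrec.fst.comp₂ Primrec₂.right) (Primrec.snd.comp₂ Primrec₂.right))).of_eq
    fun l => by
      induction l with
      | nil => simp
      | cons a l ih => simp only [id, List.foldr_cons, List.sum_cons] at ih ⊢; rw [ih]

end Crest.Agent.Lib.Computability
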